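import Vale.Agent.P353.AN.P.InjA

/-! # P353, all `N`, block P-Inj: the stratum is parametrised injectively -/

namespace Vale.Agent.P353.Z
namespace AP

/-- **P-Inj** -/
theorem inj {d : ℕ} {F : Type} [NormedAddCommGroup F] [InnerProductSpace ℂ F] (S : Setup d F) :
    InjStmt S := inj_of_partA S (inj_partA S)

end AP
end Vale.Agent.P353.Z
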