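import Vale.Agent.P353.Z.U.StmtC

/-! # P353, all `N`, block P (helper714): injectivity of the tube coordinates along a whole stratum

`z` = abelian subalgebra, `h = cen z`. Used for the mass bound of profiles up to the collision set. -/

open MeasureTheory Filter Topology
open scoped ContDiff

namespace Vale.Agent.P353.Z
namespace AP

/-- bracket of colour vectors -/
noncomputable def br {d : ℕ} {F : Type} [NormedAddCommGroup F] [InnerProductSpace ℂ F] (S : Setup d F)
    (a b : Fin d → ℝ) : Fin d → ℝ := (S.adm a).mulVec b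

/-- centraliser of a set of colour vectors -/
def cen {d : ℕ} {F : Type} [NormedAddCommGroup F] [InnerProductSpace ℂ F] (S : Setup d F)
    (T : Set (Fin d → ℝ)) : Set (Fin d → ℝ) := {v | ∀ w ∈ T, br S w v = 0}

/-- **P-Inj** the stratum is parametrised injectively, uniformly up to the collisions. `z` = abelian subalgebra, `h = cen z` its
centraliser, `y_i ∈ z` with centraliser exactly `h`, `ξ ⊥ h` small. PROOF: `g = exp(-ad ξ')exp(ad ξ)` is an automorphism of `f`, close to
`1`, `g y = y'`; it maps `cen y = h` onto `cen y' = h`; `z' = center of h ⊇ z`; replace `z` by `z'`: `g z' = z'`. The operators `i·ad v`, `v ∈ z'`,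
commute, their joint eigenvalues (weights) are a finite set of covectors on `z'`, permuted by `g`; `g` near `1` fixes each of them; the
weights separate the points of `z'` (semisimple), so `g = 1` on `z'`: `y = y'` and `exp(ad ξ) = exp(ad ξ')` on `z'`. The map
`m ∋ ξ ↦ exp(ad ξ)|_{z'}` is `C¹` with injective derivative `ξ ↦ ad ξ|_{z'}` at `0` (kernel `⊆ cen z' = h`), hence injective near `0`. -/
def InjStmt {d : ℕ} {F : Type} [NormedAddCommGroup F] [InnerProductSpace ℂ F] (S : Setup d F) : Prop :=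
  (∀ a : Fin d → ℝ, (∀ b, br S a b = 0) → a = 0) → ∀ z : Set (Fin d → ℝ), (∀ a ∈ z, ∀ b ∈ z, br S a b = 0) →
  ∃ δ : ℝ, 0 < δ ∧ ∀ (y y' : Fin 9 → Fin d → ℝ) (ξ ξ' : Fin d → ℝ), (∀ i, y i ∈ z) → (∀ i, y' i ∈ z) →
    cen S (Set.range y) = cen S z → cen S (Set.range y') = cen S z →
    (∀ v ∈ cen S z, ∑ A, ξ A * v A = 0) → (∀ v ∈ cen S z, ∑ A, ξ' A * v A = 0) →
    (∑ A, ξ A ^ 2 < δ) → (∑ A, ξ' A ^ 2 < δ) →
    (∀ i, (NormedSpace.exp (S.adm ξ)).mulVec (y i) = (NormedSpace.exp (S.adm ξ')).mulVec (y' i)) → y = y' ∧ ξ = ξ'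

end AP
end Vale.Agent.P353.Z
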