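import Vale.Agent.P353.AN.P.InjB

/-! # P353, all `N`, block P-Inj: assembly from part A -/

open MeasureTheory Filter Topology
open scoped ContDiff

namespace Vale.Agent.P353.Z
namespace AP

variable {d : ℕ} {F : Type} [NormedAddCommGroup F] [InnerProductSpace ℂ F]

/-- `exp(ad ξ)` is injective -/
theorem ib_exp_inj (S : Setup d F) (ξ v w : Fin d → ℝ)
    (h : (NormedSpace.exp (S.adm ξ)).mulVec v = (NormedSpace.exp (S.adm ξ)).mulVec w) : v = w := by
  have h1 := U.gx983_orth S ξ 1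
  rw [one_smul] at h1
  have h2 := congrArg (fun u => (NormedSpace.exp (S.adm ξ)).transpose.mulVec u) h
  simp only [Matrix.mulVec_mulVec, h1, Matrix.one_mulVec] at h2
  exact h2

/-- **P-Inj** from part A -/
theorem inj_of_partA (S : Setup d F)
    (hA : (∀ a : Fin d → ℝ, (∀ b, br S a b = 0) → a = 0) →
      ∀ z : Set (Fin d → ℝ), (∀ a ∈ z, ∀ b ∈ z, br S a b = 0) →
      ∃ δ : ℝ, 0 < δ ∧ ∀ (y y' : Fin 9 → Fin d → ℝ) (ξ ξ' : Fin d → ℝ), (∀ i, y i ∈ z) →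
        (∀ i, y' i ∈ z) → cen S (Set.range y) = cen S z → cen S (Set.range y') = cen S z →
        (∑ A, ξ A ^ 2 < δ) → (∑ A, ξ' A ^ 2 < δ) →
        (∀ i, (NormedSpace.exp (S.adm ξ)).mulVec (y i) =
          (NormedSpace.exp (S.adm ξ')).mulVec (y' i)) →
        ∀ v, v ∈ cen S z → (∀ w ∈ cen S z, br S v w = 0) →
          (NormedSpace.exp (S.adm ξ)).mulVec v = (NormedSpace.exp (S.adm ξ')).mulVec v) :
    InjStmt S := by
  intro hcl z hz
  obtain ⟨δ₁, h₁, hA⟩ := hA hcl z hz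
  obtain ⟨δ₂, h₂, hB⟩ := inj_partB S z hz
  refine ⟨min δ₁ δ₂, lt_min h₁ h₂, ?_⟩
  intro y y' ξ ξ' hy hy' hc hc' hp hp' hs hs' heq
  have h3 : ξ = ξ' := by
    refine hB ξ ξ' hp hp' (hs.trans_le (min_le_right _ _)) (hs'.trans_le (min_le_right _ _)) ?_
    intro v hv
    have h4 := (ib_mem_zc S z v).1 hv
    exact hA y y' ξ ξ' hy hy' hc hc' (hs.trans_le (min_le_left _ _))
      (hs'.trans_le (min_le_left _ _)) heq v h4.1 h4.2
  refine ⟨?_, h3⟩
  funext i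
  have h5 := heq i
  rw [h3] at h5
  exact ib_exp_inj S ξ' _ _ h5

end AP
end Vale.Agent.P353.Z
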