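import Vale.Agent.P353.AN.P.InjN
import Vale.Agent.P353.AN.P.InjC
import Vale.Agent.P353.Z.U.Grp

/-! # P353, all `N`, block P-Inj, part A: group elements near `1` that preserve the stratum fix the
centre of the centraliser pointwise -/

open MeasureTheory Filter Topology
open scoped ContDiff

namespace Vale.Agent.P353.Z
namespace AP

section sums

variable {n : ℕ}

theorem ia_sum4 (T : Fin n → Fin n → Fin n → Fin n → ℝ) :
    ∑ B, ∑ C, ∑ B', ∑ C', T B C B' C' = ∑ C', ∑ B', ∑ B, ∑ C, T B C B' C' := by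
  have h1 : ∀ B, ∑ C, ∑ B', ∑ C', T B C B' C' = ∑ C', ∑ B', ∑ C, T B C B' C' := by
    intro B
    calc ∑ C, ∑ B', ∑ C', T B C B' C' = ∑ C, ∑ C', ∑ B', T B C B' C' :=
          Finset.sum_congr rfl fun C _ => Finset.sum_comm
      _ = ∑ C', ∑ C, ∑ B', T B C B' C' := Finset.sum_comm
      _ = _ := Finset.sum_congr rfl fun C' _ => Finset.sum_comm
  simp only [h1]
  rw [Finset.sum_comm]
  exact Finset.sum_congr rfl fun C' _ => Finset.sum_comm

theorem ia_sum3 (p q : Fin n → Fin n → ℝ) :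
    ∑ E, (∑ B, p B E) * (∑ C, q C E) = ∑ B, ∑ C, ∑ E, p B E * q C E := by
  simp only [Finset.sum_mul_sum]
  rw [Finset.sum_comm]
  exact Finset.sum_congr rfl fun B _ => Finset.sum_comm

end sums

variable {d : ℕ} {F : Type} [NormedAddCommGroup F] [InnerProductSpace ℂ F]

theorem ia_br_apply (S : Setup d F) (a b : Fin d → ℝ) (A : Fin d) :
    br S a b A = ∑ C, (∑ B, S.f A B C * a B) * b C := rfl

/-- group elements are automorphisms -/
theorem ia_aut (S : Setup d F) {O : Matrix (Fin d) (Fin d) ℝ} (hO : O ∈ S.grp)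
    (a b : Fin d → ℝ) : O.mulVec (br S a b) = br S (O.mulVec a) (O.mulVec b) := by
  funext A
  have h := U.grp_f S hO.1 hO.2.1 A
  have hL : O.mulVec (br S a b) A = ∑ B, ∑ C, (∑ A', O A A' * S.f A' B C) * (a B * b C) := by
    simp only [Matrix.mulVec, dotProduct, ia_br_apply, Finset.mul_sum, Finset.sum_mul]
    rw [Finset.sum_comm]
    conv_rhs => rw [Finset.sum_comm]
    refine Finset.sum_congr rfl fun C _ => ?_
    rw [Finset.sum_comm]
    exact Finset.sum_congr rfl fun B _ => Finset.sum_congr rfl fun A' _ => by ring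
  have hR : br S (O.mulVec a) (O.mulVec b) A =
      ∑ B, ∑ C, (∑ B', ∑ C', O B' B * O C' C * S.f A B' C') * (a B * b C) := by
    simp only [Finset.sum_mul]
    rw [ia_sum4]
    rw [ia_br_apply]
    refine Finset.sum_congr rfl fun C' _ => ?_
    rw [Finset.sum_mul]
    refine Finset.sum_congr rfl fun B' _ => ?_
    simp only [Matrix.mulVec, dotProduct]
    rw [mul_assoc, Finset.sum_mul_sum, Finset.mul_sum]
    refine Finset.sum_congr rfl fun B _ => ?_
    rw [Finset.mul_sum]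
    exact Finset.sum_congr rfl fun C _ => by ring
  rw [hL, hR]
  simp only [h]

/-- `[v, w] = 0` implies that `ad v` and `ad w` commute -/
theorem ia_comm (S : Setup d F) (a b : Fin d → ℝ) (h : br S a b = 0) :
    S.adm a * S.adm b = S.adm b * S.adm a := by
  ext A D
  have h1 : (S.adm a * S.adm b) A D =
      ∑ B, ∑ C, ∑ E, (S.f A B E * a B) * (S.f E C D * b C) := by
    rw [Matrix.mul_apply]
    exact ia_sum3 (fun B E => S.f A B E * a B) (fun C E => S.f E C D * b C)
  have h2 : (S.adm b * S.adm a) A D =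
      ∑ B, ∑ C, ∑ E, (S.f E B D * a B) * (S.f A C E * b C) := by
    rw [Matrix.mul_apply, ← ia_sum3 (fun B E => S.f E B D * a B) (fun C E => S.f A C E * b C)]
    exact Finset.sum_congr rfl fun E _ => mul_comm _ _
  have h3 : ∑ B, ∑ C, ∑ E, S.f A E D * (S.f E B C * a B * b C) = 0 := by
    have h4 : ∑ E, S.f A E D * br S a b E = 0 := by
      rw [h]
      simp
    rw [← h4]
    simp only [ia_br_apply, Finset.sum_mul, Finset.mul_sum]
    symm
    rw [Finset.sum_comm]
    conv_rhs => rw [Finset.sum_comm]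
    refine Finset.sum_congr rfl fun C _ => ?_
    rw [Finset.sum_comm]
  have h5 : ∑ B, ∑ C, (a B * b C) * ∑ E, (S.f A B E * S.f E C D + S.f B C E * S.f E A D +
      S.f C A E * S.f E B D) = 0 := by
    simp only [S.f_jac, mul_zero, Finset.sum_const_zero]
  have e : (∑ B, ∑ C, ∑ E, (S.f A B E * a B) * (S.f E C D * b C)) -
      ∑ B, ∑ C, ∑ E, (S.f E B D * a B) * (S.f A C E * b C) =
      (∑ B, ∑ C, ∑ E, S.f A E D * (S.f E B C * a B * b C)) +
      ∑ B, ∑ C, (a B * b C) * ∑ E, (S.f A B E * S.f E C D + S.f B C E * S.f E A D +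
      S.f C A E * S.f E B D) := by
    simp only [← Finset.sum_sub_distrib, ← Finset.sum_add_distrib, Finset.mul_sum]
    refine Finset.sum_congr rfl fun B _ => Finset.sum_congr rfl fun C _ =>
      Finset.sum_congr rfl fun E _ => ?_
    rw [S.f_swap C A E, S.f_cyc E B C, S.f_swap E A D]
    ring
  rw [h1, h2, ← sub_eq_zero, e, h3, h5, add_zero]

open scoped Matrix.Norms.Operator in
theorem ia_exp_cont (S : Setup d F) :
    Continuous fun ξ : Fin d → ℝ => NormedSpace.exp (S.adm ξ) := by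
  have h1 : Continuous fun ξ : Fin d → ℝ => S.adm ξ := by
    refine continuous_matrix fun A C => ?_
    simp only [Setup.adm, Matrix.of_apply]
    fun_prop
  exact (NormedSpace.exp_continuous (𝔸 := Matrix (Fin d) (Fin d) ℝ)).comp h1

theorem ia_adm_zero (S : Setup d F) : S.adm 0 = 0 := by
  ext A C
  simp [Setup.adm]

/-- the group element `exp(-ad ξ')exp(ad ξ)` minus `1` -/
noncomputable def iaD (S : Setup d F) (p : (Fin d → ℝ) × (Fin d → ℝ)) : Matrix (Fin d) (Fin d) ℝ :=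
  (NormedSpace.exp (S.adm p.2)).transpose * NormedSpace.exp (S.adm p.1) - 1

theorem iaD_cont (S : Setup d F) : Continuous (iaD S) := by
  have h1 : Continuous fun p : (Fin d → ℝ) × (Fin d → ℝ) => NormedSpace.exp (S.adm p.1) :=
    (ia_exp_cont S).comp continuous_fst
  have h2 : Continuous fun p : (Fin d → ℝ) × (Fin d → ℝ) => NormedSpace.exp (S.adm p.2) :=
    (ia_exp_cont S).comp continuous_snd
  exact (h2.matrix_transpose.matrix_mul h1).sub continuous_const

theorem iaD_zero (S : Setup d F) : iaD S (0, 0) = 0 := by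
  unfold iaD
  rw [ia_adm_zero, NormedSpace.exp_zero, Matrix.transpose_one, Matrix.one_mul, sub_self]

theorem ia_small (S : Setup d F) (ε : ℝ) (hε : 0 < ε) : ∃ δ : ℝ, 0 < δ ∧
    ∀ ξ ξ' : Fin d → ℝ, ∑ A, ξ A ^ 2 < δ → ∑ A, ξ' A ^ 2 < δ → ∀ A B,
      |iaD S (ξ, ξ') A B| < ε := by
  have ho : ∀ᶠ p : (Fin d → ℝ) × (Fin d → ℝ) in 𝓝 (0, 0), ∀ A B, |iaD S p A B| < ε := by
    refine eventually_all.2 fun A => eventually_all.2 fun B => ?_
    have h1 : Continuous fun p : (Fin d → ℝ) × (Fin d → ℝ) => |iaD S p A B| :=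
      ((iaD_cont S).matrix_elem A B).abs
    have h2 := h1.tendsto (0, 0)
    rw [iaD_zero, Matrix.zero_apply, abs_zero] at h2
    exact h2.eventually_lt_const hε
  obtain ⟨r, hr, hball⟩ := Metric.eventually_nhds_iff.1 ho
  refine ⟨r ^ 2, by positivity, fun ξ ξ' h1 h2 => ?_⟩
  have hb : ∀ x : Fin d → ℝ, ∑ A, x A ^ 2 < r ^ 2 → ‖x‖ < r := by
    intro x hx
    refine (pi_norm_lt_iff hr).2 fun A => ?_
    rw [Real.norm_eq_abs]
    refine abs_lt_of_sq_lt_sq ?_ hr.le
    exact (Finset.single_le_sum (f := fun A => x A ^ 2) (fun A _ => sq_nonneg _)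
      (Finset.mem_univ A)).trans_lt hx
  have h3 : dist (ξ, ξ') ((0 : Fin d → ℝ), (0 : Fin d → ℝ)) < r := by
    rw [Prod.dist_eq, max_lt_iff, dist_zero_right, dist_zero_right]
    exact ⟨hb ξ h1, hb ξ' h2⟩
  exact hball h3

theorem ia_nearC (g : Matrix (Fin d) (Fin d) ℝ)
    (h : ∀ A B, |(g - 1) A B| ≤ 1 / (2 * ((d : ℝ) + 1) ^ 2)) (x : EuclideanSpace ℂ (Fin d)) :
    ‖Matrix.toEuclideanLin (g.map ((↑) : ℝ → ℂ)) x - x‖ ≤ 1 / 2 * ‖x‖ := by
  have ht : (0 : ℝ) ≤ d := Nat.cast_nonneg d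
  have hc : ∀ A, ‖(Matrix.toEuclideanLin (g.map ((↑) : ℝ → ℂ)) x - x) A‖ ≤
      (d : ℝ) * (1 / (2 * ((d : ℝ) + 1) ^ 2) * ‖x‖) := by
    intro A
    have h1 : (Matrix.toEuclideanLin (g.map ((↑) : ℝ → ℂ)) x - x) A =
        ∑ B, (((g - 1) A B : ℝ) : ℂ) * x B := by
      simp only [PiLp.sub_apply, Matrix.toLpLin_apply, Matrix.mulVec, dotProduct,
        Matrix.map_apply, Matrix.sub_apply, Complex.ofReal_sub, sub_mul, Finset.sum_sub_distrib,
        Matrix.one_apply]
      congr 1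
      symm
      rw [Finset.sum_eq_single A (fun B _ hB => by rw [if_neg (Ne.symm hB)]; simp)
        (fun hA => absurd (Finset.mem_univ A) hA), if_pos rfl, Complex.ofReal_one, one_mul]
    rw [h1]
    calc ‖∑ B, (((g - 1) A B : ℝ) : ℂ) * x B‖ ≤ ∑ B, ‖(((g - 1) A B : ℝ) : ℂ) * x B‖ :=
          norm_sum_le _ _
      _ ≤ ∑ _B : Fin d, 1 / (2 * ((d : ℝ) + 1) ^ 2) * ‖x‖ := by
          refine Finset.sum_le_sum fun B _ => ?_
          rw [norm_mul, Complex.norm_real, Real.norm_eq_abs]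
          exact mul_le_mul (h A B) (PiLp.norm_apply_le x B) (norm_nonneg _) (by positivity)
      _ = _ := by simp
  refine (sq_le_sq₀ (norm_nonneg _) (by positivity)).1 ?_
  rw [EuclideanSpace.norm_sq_eq]
  calc ∑ A, ‖(Matrix.toEuclideanLin (g.map ((↑) : ℝ → ℂ)) x - x) A‖ ^ 2
      ≤ ∑ _A : Fin d, ((d : ℝ) * (1 / (2 * ((d : ℝ) + 1) ^ 2) * ‖x‖)) ^ 2 :=
        Finset.sum_le_sum fun A _ => pow_le_pow_left₀ (norm_nonneg _) (hc A) 2
    _ = (d : ℝ) ^ 3 / ((d : ℝ) + 1) ^ 4 * (1 / 2 * ‖x‖) ^ 2 := by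
        rw [Finset.sum_const, Finset.card_univ, Fintype.card_fin, nsmul_eq_mul]
        field_simp
    _ ≤ 1 * (1 / 2 * ‖x‖) ^ 2 := by
        refine mul_le_mul_of_nonneg_right ?_ (sq_nonneg _)
        rw [div_le_one (by positivity)]
        nlinarith [pow_nonneg ht 2, pow_nonneg ht 3, pow_nonneg ht 4]
    _ = _ := one_mul _

theorem ia_herm (S : Setup d F) (v : Fin d → ℝ) :
    (Complex.I • (S.adm v).map ((↑) : ℝ → ℂ)).IsHermitian := by
  ext A B
  have h := congrFun (congrFun (U.gx983_adm_transpose S v) A) B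
  simp only [Matrix.transpose_apply, Matrix.neg_apply] at h
  simp only [Matrix.conjTranspose_apply, Matrix.smul_apply, Matrix.map_apply, smul_eq_mul, h]
  simp

/-- a group element near `1` fixes `v` if `[v, g v] = 0` and the centre is trivial -/
theorem ia_fix (S : Setup d F) (hcl : ∀ a : Fin d → ℝ, (∀ b, br S a b = 0) → a = 0)
    {g : Matrix (Fin d) (Fin d) ℝ} (hg : g ∈ S.grp)
    (hn : ∀ A B, |(g - 1) A B| ≤ 1 / (2 * ((d : ℝ) + 1) ^ 2)) (v : Fin d → ℝ)
    (hv : br S v (g.mulVec v) = 0) : g.mulVec v = v := by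
  have hm : S.adm (g.mulVec v) * g = g * S.adm v := by
    refine Matrix.toLin'.injective (LinearMap.ext fun w => ?_)
    have h1 := ia_aut S hg v w
    simp only [br] at h1
    rw [Matrix.toLin'_apply, Matrix.toLin'_apply, ← Matrix.mulVec_mulVec, ← Matrix.mulVec_mulVec]
    exact h1.symm
  have hcm := ia_comm S v (g.mulVec v) hv
  have hAB : Matrix.toEuclideanLin (Complex.I • (S.adm v).map ((↑) : ℝ → ℂ)) =
      Matrix.toEuclideanLin (Complex.I • (S.adm (g.mulVec v)).map ((↑) : ℝ → ℂ)) := by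
    refine ia_near _ _ (Matrix.toEuclideanLin (g.map ((↑) : ℝ → ℂ)))
      (Matrix.isSymmetric_toEuclideanLin_iff.2 (ia_herm S v))
      (Matrix.isSymmetric_toEuclideanLin_iff.2 (ia_herm S _)) ?_ (ia_nearC g hn) ?_
    · have h2 : (S.adm v).map ((↑) : ℝ → ℂ) * (S.adm (g.mulVec v)).map ((↑) : ℝ → ℂ) =
          (S.adm (g.mulVec v)).map ((↑) : ℝ → ℂ) * (S.adm v).map ((↑) : ℝ → ℂ) := by
        have h3 := congrArg (fun M => M.map Complex.ofRealHom) hcm
        simp only [Matrix.map_mul] at h3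
        exact h3
      refine LinearMap.ext fun x => ?_
      simp only [Module.End.mul_apply, Matrix.toLpLin_apply, Matrix.mulVec_mulVec,
        Matrix.smul_mul, Matrix.mul_smul, h2]
    · intro x
      have h2 : (S.adm (g.mulVec v)).map ((↑) : ℝ → ℂ) * g.map ((↑) : ℝ → ℂ) =
          g.map ((↑) : ℝ → ℂ) * (S.adm v).map ((↑) : ℝ → ℂ) := by
        have h3 := congrArg (fun M => M.map Complex.ofRealHom) hm
        simp only [Matrix.map_mul] at h3
        exact h3
      simp only [Matrix.toLpLin_apply, Matrix.mulVec_mulVec,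
        Matrix.smul_mul, Matrix.mul_smul, h2]
  have h4 := Matrix.toEuclideanLin.injective hAB
  have h5 : ∀ A B, S.adm v A B = S.adm (g.mulVec v) A B := by
    intro A B
    have h6 := congrFun (congrFun h4 A) B
    simp only [Matrix.smul_apply, Matrix.map_apply, smul_eq_mul] at h6
    exact Complex.ofReal_injective (mul_left_cancel₀ Complex.I_ne_zero h6)
  have h7 : g.mulVec v - v = 0 := by
    refine hcl _ fun b => ?_
    have h8 : S.adm (g.mulVec v - v) = 0 := by
      have h9 : S.adm (g.mulVec v) = S.adm (g.mulVec v - v) + S.adm v := by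
        rw [← ib_adm_add, sub_add_cancel]
      have h10 : S.adm v = S.adm (g.mulVec v) := Matrix.ext h5
      rw [h10] at h9
      exact (add_eq_right.1 h9.symm)
    rw [br, h8, Matrix.zero_mulVec]
  exact sub_eq_zero.1 h7

/-- **part A** -/
theorem inj_partA (S : Setup d F) (hcl : ∀ a : Fin d → ℝ, (∀ b, br S a b = 0) → a = 0)
    (z : Set (Fin d → ℝ)) (hz : ∀ a ∈ z, ∀ b ∈ z, br S a b = 0) :
    ∃ δ : ℝ, 0 < δ ∧ ∀ (y y' : Fin 9 → Fin d → ℝ) (ξ ξ' : Fin d → ℝ), (∀ i, y i ∈ z) →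
        (∀ i, y' i ∈ z) → cen S (Set.range y) = cen S z → cen S (Set.range y') = cen S z →
        (∑ A, ξ A ^ 2 < δ) → (∑ A, ξ' A ^ 2 < δ) →
        (∀ i, (NormedSpace.exp (S.adm ξ)).mulVec (y i) =
          (NormedSpace.exp (S.adm ξ')).mulVec (y' i)) →
        ∀ v, v ∈ cen S z → (∀ w ∈ cen S z, br S v w = 0) →
          (NormedSpace.exp (S.adm ξ)).mulVec v = (NormedSpace.exp (S.adm ξ')).mulVec v := by
  obtain ⟨δ, hδ, hs⟩ := ia_small S (1 / (2 * ((d : ℝ) + 1) ^ 2)) (by positivity)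
  refine ⟨δ, hδ, ?_⟩
  intro y y' ξ ξ' _ _ hc hc' h1 h2 heq v hv hvw
  have hO : NormedSpace.exp (S.adm ξ) ∈ S.grp := by
    simpa only [one_smul] using U.exp_mem S ξ 1
  have hO' : NormedSpace.exp (S.adm ξ') ∈ S.grp := by
    simpa only [one_smul] using U.exp_mem S ξ' 1
  have hg := U.grp_mul S (U.grp_transpose S hO') hO
  have hn := fun A B => (hs ξ ξ' h1 h2 A B).le
  set O := NormedSpace.exp (S.adm ξ) with hOdef
  set O' := NormedSpace.exp (S.adm ξ') with hOdef'
  have hgy : ∀ i, (O'.transpose * O).mulVec (y i) = y' i := by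
    intro i
    rw [← Matrix.mulVec_mulVec, heq i, Matrix.mulVec_mulVec, hO'.1, Matrix.one_mulVec]
  have hmap : (O'.transpose * O).mulVec v ∈ cen S z := by
    rw [← hc']
    rw [← hc] at hv
    rintro _ ⟨i, rfl⟩
    rw [← hgy i, ← ia_aut S hg, hv (y i) ⟨i, rfl⟩, Matrix.mulVec_zero]
  have hfix := ia_fix S hcl hg hn v (hvw _ hmap)
  have h3 : O' * O'.transpose = 1 := mul_eq_one_comm.1 hO'.1
  have h4 := congrArg (fun u => O'.mulVec u) hfix
  simp only [Matrix.mulVec_mulVec, ← Matrix.mul_assoc, h3, Matrix.one_mul] at h4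
  exact h4

end AP
end Vale.Agent.P353.Z
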