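import Vale.Agent.P353.AN.P.Stmt
import Vale.Agent.P353.Z.U.GrpExp

/-! # P353, all `N`, block P-Inj, part B: `exp(ad ξ)` restricted to the centre of the centraliser -/

open MeasureTheory Filter Topology
open scoped ContDiff

namespace Vale.Agent.P353.Z
namespace AP

variable {d : ℕ} {F : Type} [NormedAddCommGroup F] [InnerProductSpace ℂ F]

theorem ib_adm_add (S : Setup d F) (a b : Fin d → ℝ) : S.adm (a + b) = S.adm a + S.adm b := by
  ext A C
  simp only [Setup.adm, Matrix.of_apply, Matrix.add_apply, Pi.add_apply, mul_add,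
    Finset.sum_add_distrib]

theorem ib_adm_smul (S : Setup d F) (t : ℝ) (a : Fin d → ℝ) : S.adm (t • a) = t • S.adm a := by
  ext A C
  simp only [Setup.adm, Matrix.of_apply, Matrix.smul_apply, Pi.smul_apply, smul_eq_mul,
    Finset.mul_sum]
  exact Finset.sum_congr rfl fun B _ => by ring

/-- `ad` as a linear map -/
noncomputable def adL (S : Setup d F) : (Fin d → ℝ) →ₗ[ℝ] Matrix (Fin d) (Fin d) ℝ where
  toFun a := S.adm a
  map_add' := ib_adm_add S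
  map_smul' := ib_adm_smul S

theorem ib_br_swap (S : Setup d F) (a b : Fin d → ℝ) : br S b a = - br S a b := by
  funext A
  simp only [br, Matrix.mulVec, dotProduct, Setup.adm, Matrix.of_apply, Pi.neg_apply,
    Finset.sum_mul, ← Finset.sum_neg_distrib]
  rw [Finset.sum_comm]
  refine Finset.sum_congr rfl fun B _ => Finset.sum_congr rfl fun C _ => ?_
  rw [S.f_swap' A B C]
  ring

/-- `cen` as a subspace -/
def cenM (S : Setup d F) (T : Set (Fin d → ℝ)) : Submodule ℝ (Fin d → ℝ) where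
  carrier := cen S T
  add_mem' := fun {a b} ha hb w hw => by
    have h1 := ha w hw
    have h2 := hb w hw
    simp only [br] at h1 h2 ⊢
    rw [Matrix.mulVec_add, h1, h2, add_zero]
  zero_mem' := fun w _ => by simp only [br, Matrix.mulVec_zero]
  smul_mem' := fun c a ha w hw => by
    have h1 := ha w hw
    simp only [br] at h1 ⊢
    rw [Matrix.mulVec_smul, h1, smul_zero]

/-- the centre of `cen z` -/
def zc (S : Setup d F) (z : Set (Fin d → ℝ)) : Submodule ℝ (Fin d → ℝ) :=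
  cenM S z ⊓ cenM S (cen S z)

theorem ib_mem_zc (S : Setup d F) (z : Set (Fin d → ℝ)) (v : Fin d → ℝ) :
    v ∈ zc S z ↔ v ∈ cen S z ∧ ∀ w ∈ cen S z, br S v w = 0 := by
  constructor
  · rintro ⟨h1, h2⟩
    refine ⟨h1, fun w hw => ?_⟩
    rw [ib_br_swap S w v, h2 w hw, neg_zero]
  · rintro ⟨h1, h2⟩
    refine ⟨h1, fun w hw => ?_⟩
    rw [ib_br_swap S v w, h2 w hw, neg_zero]

theorem ib_sub_zc (S : Setup d F) (z : Set (Fin d → ℝ)) (hz : ∀ a ∈ z, ∀ b ∈ z, br S a b = 0)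
    (v : Fin d → ℝ) (hv : v ∈ z) : v ∈ zc S z := by
  refine (ib_mem_zc S z v).2 ⟨fun w hw => hz w hw v hv, fun w hw => hw v hv⟩

/-- the orthogonal complement of `cen z` -/
def pM (S : Setup d F) (z : Set (Fin d → ℝ)) : Submodule ℝ (Fin d → ℝ) where
  carrier := {ξ | ∀ v ∈ cen S z, ∑ A, ξ A * v A = 0}
  add_mem' := fun {a b} ha hb v hv => by
    have h1 := ha v hv
    have h2 := hb v hv
    simp only [Pi.add_apply, add_mul, Finset.sum_add_distrib]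
    rw [h1, h2, add_zero]
  zero_mem' := fun v _ => by simp only [Pi.zero_apply, zero_mul, Finset.sum_const_zero]
  smul_mem' := fun c a ha v hv => by
    have h1 := ha v hv
    simp only [Pi.smul_apply, smul_eq_mul, mul_assoc, ← Finset.mul_sum]
    rw [h1, mul_zero]

theorem ib_ker (S : Setup d F) (z : Set (Fin d → ℝ)) (hz : ∀ a ∈ z, ∀ b ∈ z, br S a b = 0)
    (ξ : Fin d → ℝ) (hp : ξ ∈ pM S z) (h : ∀ v ∈ zc S z, br S ξ v = 0) : ξ = 0 := by
  have h1 : ξ ∈ cen S z := fun w hw => by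
    rw [ib_br_swap S ξ w, h w (ib_sub_zc S z hz w hw), neg_zero]
  have h2 : ∑ A, ξ A * ξ A = 0 := hp ξ h1
  funext A
  have h3 := (Finset.sum_eq_zero_iff_of_nonneg (fun A _ => mul_self_nonneg (ξ A))).1 h2 A
    (Finset.mem_univ A)
  exact mul_self_eq_zero.1 h3

/-- `ξ ↦ ad ξ` on a family of vectors -/
noncomputable def adT (S : Setup d F) (z : Set (Fin d → ℝ)) {n : ℕ} (b : Fin n → Fin d → ℝ) :
    pM S z →ₗ[ℝ] (Fin n → Fin d → ℝ) where
  toFun ξ := fun i => (S.adm ξ).mulVec (b i)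
  map_add' x y := by
    funext i
    simp only [Submodule.coe_add, ib_adm_add, Matrix.add_mulVec, Pi.add_apply]
  map_smul' c x := by
    funext i
    simp only [Submodule.coe_smul, ib_adm_smul, Matrix.smul_mulVec, RingHom.id_apply, Pi.smul_apply]

theorem ib_anti (S : Setup d F) (z : Set (Fin d → ℝ)) (hz : ∀ a ∈ z, ∀ b ∈ z, br S a b = 0) :
    ∃ (n : ℕ) (b : Fin n → Fin d → ℝ), (∀ i, b i ∈ zc S z) ∧
      ∃ K : ℝ, 0 < K ∧ ∀ ξ : pM S z, ‖ξ‖ ≤ K * ‖adT S z b ξ‖ := by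
  set B := Module.finBasis ℝ (zc S z) with hB
  refine ⟨_, fun i => (B i : Fin d → ℝ), fun i => (B i).2, ?_⟩
  set T := adT S z (fun i => (B i : Fin d → ℝ)) with hT
  have hk : LinearMap.ker T = ⊥ := by
    rw [LinearMap.ker_eq_bot']
    intro ξ hξ
    refine Subtype.ext (ib_ker S z hz ξ ξ.2 fun v hv => ?_)
    have h1 : ∀ i, (S.adm ξ).mulVec (B i : Fin d → ℝ) = 0 := fun i => congrFun hξ i
    have h2 : (((S.adm ξ).mulVecLin ∘ₗ (zc S z).subtype) : zc S z →ₗ[ℝ] (Fin d → ℝ)) = 0 := by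
      refine B.ext fun i => ?_
      exact h1 i
    exact LinearMap.congr_fun h2 ⟨v, hv⟩
  obtain ⟨K, hK, hA⟩ := LinearMap.exists_antilipschitzWith T hk
  refine ⟨K, NNReal.coe_pos.2 hK, fun ξ => ?_⟩
  have h1 := hA.le_mul_dist ξ 0
  rwa [map_zero, dist_zero_right, dist_zero_right] at h1

theorem ib_exp {𝔸 : Type*} [NormedRing 𝔸] [NormedAlgebra ℝ 𝔸] [NormedAlgebra ℚ 𝔸]
    [CompleteSpace 𝔸] {c : ℝ} (hc : 0 < c) :
    ∃ ε : ℝ, 0 < ε ∧ ∀ X Y : 𝔸, ‖X‖ < ε → ‖Y‖ < ε →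
      ‖NormedSpace.exp X - NormedSpace.exp Y - (X - Y)‖ ≤ c * ‖X - Y‖ := by
  have h1 := (hasStrictFDerivAt_exp_zero (𝕂 := ℝ) (𝔸 := 𝔸)).isLittleO.def hc
  obtain ⟨ε, hε, h3⟩ := Metric.eventually_nhds_iff.1 h1
  refine ⟨ε, hε, fun X Y h h' => ?_⟩
  have h4 : dist (X, Y) ((0 : 𝔸), (0 : 𝔸)) < ε := by
    rw [Prod.dist_eq]
    simp only [dist_zero_right]
    exact max_lt h h'
  exact h3 h4

section Norm

open scoped Matrix.Norms.Operator

theorem ib_strict {c : ℝ} (hc : 0 < c) :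
    ∃ ε : ℝ, 0 < ε ∧ ∀ X Y : Matrix (Fin d) (Fin d) ℝ, ‖X‖ < ε → ‖Y‖ < ε →
      ‖NormedSpace.exp X - NormedSpace.exp Y - (X - Y)‖ ≤ c * ‖X - Y‖ :=
  ib_exp hc

theorem ib_bound (S : Setup d F) : ∃ C : ℝ, 0 < C ∧ ∀ ξ : Fin d → ℝ, ‖S.adm ξ‖ ≤ C * ‖ξ‖ := by
  refine ⟨∑ A, ‖S.adm (fun B => if A = B then 1 else 0)‖ + 1, by positivity, fun ξ => ?_⟩
  have h1 : S.adm ξ = ∑ A, ξ A • S.adm (fun B => if A = B then 1 else 0) :=
    LinearMap.pi_apply_eq_sum_univ (adL S) ξ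
  have h2 : ‖S.adm ξ‖ ≤ ∑ A, ‖S.adm (fun B => if A = B then 1 else 0)‖ * ‖ξ‖ := by
    rw [h1]
    refine (norm_sum_le _ _).trans (Finset.sum_le_sum fun A _ => ?_)
    rw [norm_smul, mul_comm]
    exact mul_le_mul_of_nonneg_left (norm_le_pi_norm ξ A) (norm_nonneg _)
  rw [← Finset.sum_mul] at h2
  refine h2.trans (mul_le_mul_of_nonneg_right (by linarith) (norm_nonneg _))

/-- **part B** -/
theorem inj_partB (S : Setup d F) (z : Set (Fin d → ℝ))
    (hz : ∀ a ∈ z, ∀ b ∈ z, br S a b = 0) :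
    ∃ δ : ℝ, 0 < δ ∧ ∀ ξ ξ' : Fin d → ℝ,
      (∀ v ∈ cen S z, ∑ A, ξ A * v A = 0) → (∀ v ∈ cen S z, ∑ A, ξ' A * v A = 0) →
      (∑ A, ξ A ^ 2 < δ) → (∑ A, ξ' A ^ 2 < δ) →
      (∀ v ∈ zc S z, (NormedSpace.exp (S.adm ξ)).mulVec v =
        (NormedSpace.exp (S.adm ξ')).mulVec v) → ξ = ξ' := by
  obtain ⟨n, b, hb, K, hK, hanti⟩ := ib_anti S z hz
  obtain ⟨C, hC, hCb⟩ := ib_bound S
  have hc : 0 < 1 / (2 * K * C * (‖b‖ + 1)) := by positivity
  obtain ⟨ε, hε, hexp⟩ := ib_strict (d := d) hc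
  have hsmall : ∀ ξ : Fin d → ℝ, ∑ A, ξ A ^ 2 < (ε / C) ^ 2 → ‖S.adm ξ‖ < ε := by
    intro ξ h
    have h1 : ‖ξ‖ < ε / C := by
      rw [pi_norm_lt_iff (by positivity)]
      intro A
      rw [Real.norm_eq_abs]
      refine abs_lt_of_sq_lt_sq ?_ (by positivity)
      exact (Finset.single_le_sum (f := fun A => ξ A ^ 2) (fun A _ => sq_nonneg (ξ A))
        (Finset.mem_univ A)).trans_lt h
    refine (hCb ξ).trans_lt ?_
    rw [lt_div_iff₀ hC] at h1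
    linarith
  refine ⟨(ε / C) ^ 2, by positivity, fun ξ ξ' hp hp' hs hs' heq => ?_⟩
  have h1 := hexp (S.adm ξ) (S.adm ξ') (hsmall ξ hs) (hsmall ξ' hs')
  set w : pM S z := ⟨ξ, hp⟩ - ⟨ξ', hp'⟩ with hw
  have hwv : (w : Fin d → ℝ) = ξ - ξ' := rfl
  have hadw : S.adm (w : Fin d → ℝ) = S.adm ξ - S.adm ξ' := by
    rw [hwv]
    exact (adL S).map_sub ξ ξ'
  have h4 : ‖S.adm ξ - S.adm ξ'‖ ≤ C * ‖w‖ := by
    rw [← hadw]
    exact hCb (w : Fin d → ℝ)
  have h2 : ‖adT S z b w‖ ≤ 1 / (2 * K * C * (‖b‖ + 1)) * (C * ‖w‖) * ‖b‖ := by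
    rw [pi_norm_le_iff_of_nonneg (by positivity)]
    intro i
    have h3 : adT S z b w i =
        -((NormedSpace.exp (S.adm ξ) - NormedSpace.exp (S.adm ξ') -
          (S.adm ξ - S.adm ξ')).mulVec (b i)) := by
      have h5 : adT S z b w i = (S.adm ξ - S.adm ξ').mulVec (b i) := by
        rw [← hadw]
        rfl
      rw [h5, Matrix.sub_mulVec (NormedSpace.exp (S.adm ξ) - NormedSpace.exp (S.adm ξ')),
        Matrix.sub_mulVec (NormedSpace.exp (S.adm ξ)), heq _ (hb i), sub_self, zero_sub, neg_neg]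
    rw [h3, norm_neg]
    refine (Matrix.linfty_opNorm_mulVec _ _).trans ?_
    refine mul_le_mul (h1.trans (mul_le_mul_of_nonneg_left h4 hc.le)) (norm_le_pi_norm b i)
      (norm_nonneg _) (by positivity)
  have h6 := hanti w
  have h7 : ‖w‖ ≤ 1 / 2 * ‖w‖ := by
    have h8 : K * ‖adT S z b w‖ ≤ K * (1 / (2 * K * C * (‖b‖ + 1)) * (C * ‖w‖) * ‖b‖) :=
      mul_le_mul_of_nonneg_left h2 hK.le
    have h9 : K * (1 / (2 * K * C * (‖b‖ + 1)) * (C * ‖w‖) * ‖b‖) =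
        1 / 2 * (‖b‖ / (‖b‖ + 1)) * ‖w‖ := by
      field_simp
    have h10 : ‖b‖ / (‖b‖ + 1) ≤ 1 := by
      rw [div_le_one (by positivity)]
      linarith
    have h11 : 1 / 2 * (‖b‖ / (‖b‖ + 1)) * ‖w‖ ≤ 1 / 2 * ‖w‖ :=
      mul_le_mul_of_nonneg_right (by linarith) (norm_nonneg _)
    linarith
  have h12 : ‖w‖ = 0 := le_antisymm (by linarith) (norm_nonneg _)
  have h13 : w = 0 := norm_eq_zero.1 h12
  have h14 : ξ - ξ' = 0 := by
    rw [← hwv, h13]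
    rfl
  exact sub_eq_zero.1 h14

end Norm

end AP
end Vale.Agent.P353.Z
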