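import Mathlib

/-! # P353, all `N`, block P-Inj: two commuting symmetric operators conjugate by a map near `1` are equal -/

namespace Vale.Agent.P353.Z
namespace AP

variable {E : Type*} [NormedAddCommGroup E] [InnerProductSpace ℂ E] [FiniteDimensional ℂ E]

/-- two commuting symmetric operators `A`, `B` with `B G = G A`, `G` near `1`, are equal -/
theorem ia_near (A B G : E →ₗ[ℂ] E) (hA : A.IsSymmetric) (hB : B.IsSymmetric) (hAB : Commute A B)
    (hG : ∀ x, ‖G x - x‖ ≤ 1 / 2 * ‖x‖) (hBG : ∀ x, B (G x) = G (A x)) : A = B := by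
  have hinj : Function.Injective G := by
    refine (injective_iff_map_eq_zero G).2 fun x hx => ?_
    have h1 := hG x
    rw [hx, zero_sub, norm_neg] at h1
    have h2 : ‖x‖ ≤ 0 := by linarith [norm_nonneg x]
    exact norm_le_zero_iff.1 h2
  have hsur : Function.Surjective G := LinearMap.injective_iff_surjective.1 hinj
  have key : ∀ α γ : ℂ, Module.End.eigenspace A α ⊓ Module.End.eigenspace B γ ≤
      LinearMap.ker (A - B) := by
    intro α γ x hx
    obtain ⟨hxA, hxB⟩ := Submodule.mem_inf.1 hx
    rw [Module.End.mem_eigenspace_iff] at hxA hxB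
    rw [LinearMap.mem_ker, LinearMap.sub_apply, hxA, hxB]
    by_cases hαγ : α = γ
    · rw [hαγ, sub_self]
    · obtain ⟨y, rfl⟩ := hsur x
      have hy : A y = γ • y := by
        apply hinj
        rw [← hBG, hxB, map_smul]
      have horth : inner ℂ (G y) y = 0 := by
        have h1 := hA.orthogonalFamily_eigenspaces hαγ ⟨G y, Module.End.mem_eigenspace_iff.2 hxA⟩
          ⟨y, Module.End.mem_eigenspace_iff.2 hy⟩
        simpa using h1
      have h2 : ‖G y - y‖ ^ 2 = ‖G y‖ ^ 2 + ‖y‖ ^ 2 := by
        rw [@norm_sub_sq ℂ, horth]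
        simp
      have h3 : y = 0 := by
        by_contra hne
        have h4 : 0 < ‖y‖ := norm_pos_iff.2 hne
        have h5 := hG y
        have h6 : ‖G y - y‖ ^ 2 ≤ (1 / 2 * ‖y‖) ^ 2 :=
          pow_le_pow_left₀ (norm_nonneg _) h5 2
        nlinarith [sq_nonneg ‖G y‖]
      rw [h3, map_zero, smul_zero, smul_zero, sub_zero]
  have htop := hA.iSup_iSup_eigenspace_inf_eigenspace_eq_top_of_commute hB hAB
  have h5 : LinearMap.ker (A - B) = ⊤ := by
    refine le_antisymm le_top ?_
    rw [← htop]
    exact iSup_le fun α => iSup_le fun γ => key α γ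
  exact sub_eq_zero.1 (LinearMap.ker_eq_top.1 h5)

end AP
end Vale.Agent.P353.Z
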