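import Vale.Agent.P353.AN.P.InjB

/-! # P353, all `N`, block P-Inj: automorphisms near `1` preserving an abelian subspace fix it -/

open MeasureTheory Filter Topology
open scoped ContDiff

namespace Vale.Agent.P353.Z
namespace AP

variable {d : ℕ} {F : Type} [NormedAddCommGroup F] [InnerProductSpace ℂ F]

/-- `ad` is a homomorphism -/
theorem iw_adm_comm (S : Setup d F) (v w : Fin d → ℝ) :
    S.adm v * S.adm w - S.adm w * S.adm v = S.adm (br S v w) := by
  ext A C
  simp only [Matrix.sub_apply, Matrix.mul_apply, Setup.adm, Matrix.of_apply, br, Matrix.mulVec,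
    dotProduct]
  have h1 : ∀ B D, ∑ E, S.f A B E * S.f E D C - ∑ E, S.f A D E * S.f E B C =
      ∑ E, S.f A E C * S.f E B D := by
    intro B D
    have h := S.f_jac A B D C
    rw [← Finset.sum_sub_distrib]
    have h2 : ∑ E, (S.f A B E * S.f E D C - S.f A D E * S.f E B C - S.f A E C * S.f E B D) = 0 := by
      rw [← h]
      refine Finset.sum_congr rfl fun E _ => ?_
      rw [S.f_swap D A E, S.f_cyc B D E, S.f_cyc D E B, S.f_swap E A C]
      ring
    rw [Finset.sum_sub_distrib] at h2
    linarith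
  have h3 : ∀ x y : Fin d → ℝ, ∑ E, (∑ B, S.f A B E * x B) * ∑ D, S.f E D C * y D =
      ∑ B, ∑ D, x B * y D * ∑ E, S.f A B E * S.f E D C := by
    intro x y
    have h5 : ∀ E, (∑ B, S.f A B E * x B) * ∑ D, S.f E D C * y D =
        ∑ B, ∑ D, (S.f A B E * x B) * (S.f E D C * y D) := fun E => Finset.sum_mul_sum _ _ _ _
    simp only [h5, Finset.mul_sum]
    rw [Finset.sum_comm]
    refine Finset.sum_congr rfl fun B _ => ?_
    rw [Finset.sum_comm]
    exact Finset.sum_congr rfl fun D _ => Finset.sum_congr rfl fun E _ => by ring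
  have h4 : ∑ E, S.f A E C * ∑ D, (∑ B, S.f E B D * v B) * w D =
      ∑ B, ∑ D, v B * w D * ∑ E, S.f A E C * S.f E B D := by
    simp only [Finset.sum_mul, Finset.mul_sum]
    rw [Finset.sum_comm]
    conv_rhs => rw [Finset.sum_comm]
    refine Finset.sum_congr rfl fun D _ => ?_
    rw [Finset.sum_comm]
    exact Finset.sum_congr rfl fun B _ => Finset.sum_congr rfl fun E _ => by ring
  rw [h3, h3, h4]
  rw [Finset.sum_comm (f := fun B D => w B * v D * ∑ E, S.f A B E * S.f E D C)]
  rw [← Finset.sum_sub_distrib]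
  refine Finset.sum_congr rfl fun B _ => ?_
  rw [← Finset.sum_sub_distrib]
  refine Finset.sum_congr rfl fun D _ => ?_
  rw [← h1 B D]
  ring

/-- two commuting antisymmetric matrices conjugate by a matrix near `1` are equal -/
theorem iw_eq (A B g : Matrix (Fin d) (Fin d) ℝ) (hA : A.transpose = -A) (hB : B.transpose = -B)
    (hAB : A * B = B * A) (hg : g * A = B * g)
    (hpos : ∀ c : Fin d → ℝ, (1 / 2) * ∑ i, c i ^ 2 ≤ ∑ i, g.mulVec c i * c i) : A = B := by
  have h1 : A * g.transpose = g.transpose * B := by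
    have h := congrArg Matrix.transpose hg
    rw [Matrix.transpose_mul, Matrix.transpose_mul, hA, hB, Matrix.neg_mul, Matrix.mul_neg] at h
    exact neg_injective h
  have e1 : (g.transpose * (A * A)).trace = (g.transpose * (A * B)).trace := by
    rw [← Matrix.mul_assoc, Matrix.trace_mul_comm, ← Matrix.mul_assoc, h1, Matrix.mul_assoc, hAB]
  have e2 : (g.transpose * (B * B)).trace = (g.transpose * (A * B)).trace := by
    rw [← Matrix.mul_assoc, ← h1, Matrix.mul_assoc, Matrix.trace_mul_comm, Matrix.mul_assoc, hAB]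
  have e3 : (g.transpose * ((A - B) * (A - B))).trace = 0 := by
    have h2 : (A - B) * (A - B) = A * A - A * B - A * B + B * B := by
      rw [Matrix.sub_mul, Matrix.mul_sub, Matrix.mul_sub, ← hAB]
      abel
    rw [h2, Matrix.mul_add, Matrix.mul_sub, Matrix.mul_sub, Matrix.trace_add, Matrix.trace_sub,
      Matrix.trace_sub, e1, e2]
    ring
  set C := A - B with hC
  have hCt : C.transpose = -C := by
    rw [hC, Matrix.transpose_sub, hA, hB]
    abel
  have hCs : ∀ i j, C i j = - C j i := by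
    intro i j
    have h := congrFun (congrFun hCt j) i
    simpa [Matrix.transpose_apply] using h
  have e4 : (g.transpose * (C * C)).trace = -∑ i, ∑ j, g.mulVec (fun k => C k i) j * C j i := by
    simp only [Matrix.trace, Matrix.diag_apply, Matrix.mul_apply, Matrix.transpose_apply,
      Matrix.mulVec, dotProduct, Finset.mul_sum, Finset.sum_mul, ← Finset.sum_neg_distrib]
    rw [Finset.sum_comm]
    conv_rhs => rw [Finset.sum_comm]
    refine Finset.sum_congr rfl fun j _ => ?_
    rw [Finset.sum_comm]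
    refine Finset.sum_congr rfl fun i _ => Finset.sum_congr rfl fun k _ => ?_
    rw [hCs i k]
    ring
  have e5 : ∀ i, ∑ k, C k i ^ 2 = 0 := by
    have h2 : ∑ i, ∑ j, g.mulVec (fun k => C k i) j * C j i = 0 := by
      rw [e3] at e4
      linarith
    have h3 : ∑ i, (1 / 2) * ∑ k, C k i ^ 2 ≤ 0 := by
      rw [← h2]
      exact Finset.sum_le_sum fun i _ => hpos fun k => C k i
    have h4 : ∀ i ∈ Finset.univ, 0 ≤ (1 / 2) * ∑ k, C k i ^ 2 := fun i _ =>
      mul_nonneg (by norm_num) (Finset.sum_nonneg fun k _ => sq_nonneg _)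
    intro i
    have h5 := (Finset.sum_eq_zero_iff_of_nonneg h4).1 (le_antisymm h3 (Finset.sum_nonneg h4)) i
      (Finset.mem_univ i)
    linarith
  have e6 : C = 0 := by
    ext k i
    have h5 := (Finset.sum_eq_zero_iff_of_nonneg (fun k _ => sq_nonneg (C k i))).1 (e5 i) k
      (Finset.mem_univ k)
    simpa using h5
  exact sub_eq_zero.1 e6

/-- **W** -/
theorem injW (S : Setup d F) (hcl : ∀ a : Fin d → ℝ, (∀ b, br S a b = 0) → a = 0)
    (V : Submodule ℝ (Fin d → ℝ)) (hV : ∀ v ∈ V, ∀ w ∈ V, br S v w = 0)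
    (g : Matrix (Fin d) (Fin d) ℝ) (hgV : ∀ v ∈ V, g.mulVec v ∈ V)
    (hbr : ∀ a b, g.mulVec (br S a b) = br S (g.mulVec a) (g.mulVec b))
    (_hort : g.transpose * g = 1)
    (hnear : ∀ a : Fin d → ℝ, ∑ A, (g.mulVec a A - a A) ^ 2 ≤ (1 / 4) * ∑ A, a A ^ 2) :
    ∀ v ∈ V, g.mulVec v = v := by
  intro v hv
  have hw := hgV v hv
  have hcomm : S.adm v * S.adm (g.mulVec v) = S.adm (g.mulVec v) * S.adm v := by
    have h1 := iw_adm_comm S v (g.mulVec v)
    rw [hV v hv _ hw] at h1
    have h2 : S.adm 0 = 0 := (adL S).map_zero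
    rw [h2] at h1
    exact sub_eq_zero.1 h1
  have hg : g * S.adm v = S.adm (g.mulVec v) * g := by
    refine Matrix.toLin'.injective (LinearMap.ext fun b => ?_)
    rw [Matrix.toLin'_apply, Matrix.toLin'_apply, ← Matrix.mulVec_mulVec, ← Matrix.mulVec_mulVec]
    exact hbr v b
  have hpos : ∀ c : Fin d → ℝ, (1 / 2) * ∑ i, c i ^ 2 ≤ ∑ i, g.mulVec c i * c i := by
    intro c
    have h1 := hnear c
    have h2 : ∑ i, (g.mulVec c i * c i) = ∑ i, ((c i ^ 2 + (g.mulVec c i - c i) * c i)) :=
      Finset.sum_congr rfl fun i _ => by ring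
    have h3 : ∑ i, -(g.mulVec c i - c i) * c i ≤ ∑ i, ((g.mulVec c i - c i) ^ 2 + (1 / 4) * c i ^ 2) :=
      Finset.sum_le_sum fun i _ => by nlinarith [sq_nonneg ((g.mulVec c i - c i) + (1 / 2) * c i)]
    rw [Finset.sum_add_distrib, ← Finset.mul_sum] at h3
    have h4 : ∑ i, -(g.mulVec c i - c i) * c i = -∑ i, (g.mulVec c i - c i) * c i := by
      rw [← Finset.sum_neg_distrib]
      exact Finset.sum_congr rfl fun i _ => by ring
    rw [h2, Finset.sum_add_distrib]
    linarith
  have h := iw_eq (S.adm v) (S.adm (g.mulVec v)) g (U.gx983_adm_transpose S v)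
    (U.gx983_adm_transpose S _) hcomm hg hpos
  have h2 : g.mulVec v - v = 0 := by
    refine hcl _ fun b => ?_
    have h3 : S.adm (g.mulVec v - v) = 0 := by
      have h4 : S.adm (g.mulVec v - v) = S.adm (g.mulVec v) - S.adm v := (adL S).map_sub _ _
      rw [h4, h, sub_self]
    rw [br, h3, Matrix.zero_mulVec]
  exact sub_eq_zero.1 h2

end AP
end Vale.Agent.P353.Z
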